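import Vale.Agent.P181.NR.Defs
import Vale.Agent.P181.BL.H118.MinR
import Vale.Agent.P181.H411.Seam4

set_option autoImplicit false

/-!
# P181, NR (N1): labels from cross ratios of generic points
-/

open MvPolynomial

namespace Vale.Agent.P181.NR.H312

open Vale.Agent.P181.TL (KK)
open Vale.Agent.P181.T4 (HW rowOp rowOp_leibniz rowOp_C)

section algebra

variable {m : ℕ} {σ : Type} [Fintype σ]

lemma KK_mul {d d' : σ → ℕ} {mu mu' : Fin m → ℕ} {f g : MvPolynomial (Fin m × σ) ℂ}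
    (hf : f ∈ KK m σ d mu) (hg : g ∈ KK m σ d' mu') : f * g ∈ KK m σ (d + d') (mu + mu') := by
  classical
  have key : ∀ v, coeff v (f * g) ≠ 0 → ∃ v1 v2, v1 + v2 = v ∧ coeff v1 f ≠ 0 ∧ coeff v2 g ≠ 0 := by
    intro v hv
    rw [coeff_mul] at hv
    obtain ⟨x, hx, hx'⟩ := Finset.exists_ne_zero_of_sum_ne_zero hv
    exact ⟨x.1, x.2, Finset.HasAntidiagonal.mem_antidiagonal.1 hx, left_ne_zero_of_mul hx',
      right_ne_zero_of_mul hx'⟩
  refine ⟨⟨fun v hv i => ?_, fun s i hsi => ?_⟩, fun v hv y => ?_⟩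
  · obtain ⟨v1, v2, rfl, h1, h2⟩ := key v hv
    rw [Pi.add_apply, ← hf.1.1 v1 h1 i, ← hg.1.1 v2 h2 i, ← Finset.sum_add_distrib]
    rfl
  · rw [rowOp_leibniz, hf.1.2 s i hsi, hg.1.2 s i hsi, zero_mul, mul_zero, add_zero]
  · obtain ⟨v1, v2, rfl, h1, h2⟩ := key v hv
    rw [Pi.add_apply, ← hf.2 v1 h1 y, ← hg.2 v2 h2 y, ← Finset.sum_add_distrib]
    rfl

lemma KK_one : (1 : MvPolynomial (Fin m × σ) ℂ) ∈ KK m σ 0 0 := by
  classical
  have key : ∀ v, coeff v (1 : MvPolynomial (Fin m × σ) ℂ) ≠ 0 → v = 0 := by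
    intro v hv
    rw [coeff_one] at hv
    by_contra h
    exact hv (if_neg (Ne.symm h))
  refine ⟨⟨fun v hv i => ?_, fun s i _ => ?_⟩, fun v hv y => ?_⟩
  · rw [key v hv]
    simp
  · rw [← C_1]
    exact rowOp_C _ _ _
  · rw [key v hv]
    simp

lemma KK_prod {κ : Type} (t : Finset κ) {d : κ → σ → ℕ} {mu : κ → Fin m → ℕ}
    {f : κ → MvPolynomial (Fin m × σ) ℂ} (hf : ∀ i ∈ t, f i ∈ KK m σ (d i) (mu i)) :
    ∏ i ∈ t, f i ∈ KK m σ (∑ i ∈ t, d i) (∑ i ∈ t, mu i) := by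
  classical
  induction t using Finset.induction_on with
  | empty =>
    rw [Finset.prod_empty, Finset.sum_empty, Finset.sum_empty]
    exact KK_one
  | insert i t hi ih =>
    rw [Finset.prod_insert hi, Finset.sum_insert hi, Finset.sum_insert hi]
    exact KK_mul (hf i (Finset.mem_insert_self _ _))
      (ih fun j hj => hf j (Finset.mem_insert_of_mem hj))

end algebra

/-- The minor of the top rows and the columns `κ`. -/
noncomputable def Mn {m q : ℕ} {σ : Type} (h : q ≤ m) (κ : Fin q → σ) :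
    MvPolynomial (Fin m × σ) ℂ :=
  Matrix.det (fun i l : Fin q => (X (Fin.castLE h i, κ l) : MvPolynomial (Fin m × σ) ℂ))

lemma Mn_mem (hMin : BL.MinR) {m q : ℕ} {σ : Type} [Fintype σ] [DecidableEq σ] (h : q ≤ m)
    (κ : Fin q → σ) : Mn h κ ∈ KK m σ (fun x => (Finset.univ.filter fun l => κ l = x).card)
      (fun i => if (i : ℕ) < q then 1 else 0) :=
  ⟨(hMin m q σ h κ).1, (hMin m q σ h κ).2⟩


/-- The Vandermonde product. -/
noncomputable def vd {r : ℕ} (v : Fin r → ℂ) : ℂ := ∏ i, ∏ l ∈ Finset.Ioi i, (v l - v i)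

lemma vd_cons {r : ℕ} (a : ℂ) (v : Fin r → ℂ) :
    vd (Fin.cons a v : Fin (r + 1) → ℂ) = (∏ l, (v l - a)) * vd v := by
  unfold vd
  rw [Fin.prod_univ_succ, Fin.prod_Ioi_zero]
  congr 1
  refine Finset.prod_congr rfl fun i _ => ?_
  rw [Fin.prod_Ioi_succ]
  rfl

lemma vd_cons2 {r : ℕ} (a b : ℂ) (v : Fin r → ℂ) :
    vd (Fin.cons a (Fin.cons b v : Fin (r + 1) → ℂ) : Fin (r + 2) → ℂ) =
      (b - a) * (∏ l, (v l - a)) * (∏ l, (v l - b)) * vd v := by
  rw [vd_cons, vd_cons, Fin.prod_univ_succ]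
  simp only [Fin.cons_zero, Fin.cons_succ]
  ring

/-- The moment curve. -/
def ev {m n : ℕ} (z : Fin n → ℂ) : Fin m × Fin n → ℂ := fun p => z p.2 ^ (p.1 : ℕ)

lemma eval_Mn {m r n : ℕ} (h : r ≤ m) (κ : Fin r → Fin n) (z : Fin n → ℂ) :
    eval (ev z) (Mn h κ) = vd fun l => z (κ l) := by
  refine (RingHom.map_det (eval (ev z)) (Matrix.of fun i l : Fin r =>
    (X (Fin.castLE h i, κ l) : MvPolynomial (Fin m × Fin n) ℂ))).trans ?_
  have : (RingHom.mapMatrix (eval (ev z))) (Matrix.of fun i l : Fin r =>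
      (X (Fin.castLE h i, κ l) : MvPolynomial (Fin m × Fin n) ℂ)) =
      (Matrix.vandermonde fun l => z (κ l)).transpose := by
    ext i l
    simp [ev, Matrix.vandermonde_apply, RingHom.mapMatrix_apply]
  rw [this, Matrix.det_transpose, Matrix.det_vandermonde]
  rfl

/-- The columns `a`, `b`, `S`. -/
def kp {r n : ℕ} (a b : Fin n) (S : Fin r → Fin n) : Fin (r + 2) → Fin n :=
  Fin.cons a (Fin.cons b S : Fin (r + 1) → Fin n)

lemma vd_kp {r n : ℕ} (a b : Fin n) (S : Fin r → Fin n) (z : Fin n → ℂ) :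
    vd (fun l => z (kp a b S l)) =
      (z b - z a) * (∏ l, (z (S l) - z a)) * (∏ l, (z (S l) - z b)) * vd fun l => z (S l) := by
  rw [← vd_cons2]
  congr 1
  ext l
  unfold kp
  refine Fin.cases ?_ (fun l => ?_) l
  · rfl
  · refine Fin.cases ?_ (fun l => ?_) l <;> rfl

lemma card_kp {r n : ℕ} (a b : Fin n) (S : Fin r → Fin n) (x : Fin n) :
    (Finset.univ.filter fun l => kp a b S l = x).card =
      (if a = x then 1 else 0) + (if b = x then 1 else 0) +
        (Finset.univ.filter fun l => S l = x).card := by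
  simp only [Finset.card_filter]
  rw [Fin.sum_univ_succ, Fin.sum_univ_succ]
  simp only [kp, Fin.cons_zero, Fin.cons_succ]
  ring

section fixed

variable {r n : ℕ} (a b c d : Fin n) (S : Fin r → Fin n)

/-- The content. -/
def ct (x : Fin n) : ℕ :=
  (if a = x then 1 else 0) + (if b = x then 1 else 0) + (if c = x then 1 else 0) +
    (if d = x then 1 else 0) + 2 * (Finset.univ.filter fun l => S l = x).card

lemma ct_perm (g : Equiv.Perm (Fin n)) (x : Fin n) :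
    ct (g a) (g b) (g c) (g d) (fun l => g (S l)) x = ct a b c d S (g⁻¹ x) := by
  unfold ct
  simp only [Equiv.Perm.eq_inv_iff_eq]

/-- The product of two minors. -/
noncomputable def AA {m : ℕ} (h : r + 2 ≤ m) : MvPolynomial (Fin m × Fin n) ℂ :=
  Mn h (kp a b S) * Mn h (kp c d S)

lemma AA_mem {m : ℕ} (h : r + 2 ≤ m) : AA a b c d S h ∈
    KK m (Fin n) (ct a b c d S) (fun i => if (i : ℕ) < r + 2 then 2 else 0) := by
  have h1 := Mn_mem Vale.Agent.P181.BL.H118.minR h (kp a b S)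
  have h2 := Mn_mem Vale.Agent.P181.BL.H118.minR h (kp c d S)
  have h3 := KK_mul h1 h2
  have e1 : (fun x => (Finset.univ.filter fun l => kp a b S l = x).card) +
      (fun x => (Finset.univ.filter fun l => kp c d S l = x).card) = ct a b c d S := by
    ext x
    rw [Pi.add_apply, card_kp, card_kp]
    unfold ct
    ring
  have e2 : ((fun i : Fin m => if (i : ℕ) < r + 2 then 1 else 0) +
      fun i : Fin m => if (i : ℕ) < r + 2 then 1 else 0) =
      fun i : Fin m => if (i : ℕ) < r + 2 then 2 else 0 := by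
    ext i
    rw [Pi.add_apply]
    split_ifs <;> rfl
  rw [e1, e2] at h3
  exact h3

lemma eval_AA {m : ℕ} (h : r + 2 ≤ m) (z : Fin n → ℂ) :
    eval (ev z) (AA a b c d S h) =
      (z b - z a) * (z d - z c) * ((∏ l, (z (S l) - z a)) * (∏ l, (z (S l) - z b)) *
        (∏ l, (z (S l) - z c)) * (∏ l, (z (S l) - z d)) * (vd fun l => z (S l)) ^ 2) := by
  unfold AA
  rw [map_mul, eval_Mn, eval_Mn, vd_kp, vd_kp]
  ring

end fixed

lemma ct_swap {r n : ℕ} (a b c d : Fin n) (S : Fin r → Fin n) : ct a b c d S = ct a d c b S := by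
  ext x
  unfold ct
  ring

lemma sum_perm {n : ℕ} (φ : Fin n → ℕ) (x y : Fin n) :
    ∑ g : Equiv.Perm (Fin n), φ (g⁻¹ x) = ∑ g : Equiv.Perm (Fin n), φ (g⁻¹ y) := by
  have h := Equiv.sum_comp (Equiv.mulLeft (Equiv.swap x y))
    (fun g : Equiv.Perm (Fin n) => φ (g⁻¹ y))
  rw [← h]
  refine Finset.sum_congr rfl fun g _ => ?_
  simp [Equiv.Perm.mul_apply, mul_inv_rev]

/-- A permutation sending two points where we want. -/
lemma exists_perm {n : ℕ} (x y i i' : Fin n) (hxy : x ≠ y) (hi : i ≠ i') :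
    ∃ g : Equiv.Perm (Fin n), g x = i ∧ g y = i' := by
  have h1 : Equiv.swap x i y ≠ i := by
    intro h
    have : Equiv.swap x i y = Equiv.swap x i x := by rw [h, Equiv.swap_apply_left]
    exact hxy ((Equiv.swap x i).injective this).symm
  refine ⟨Equiv.swap (Equiv.swap x i y) i' * Equiv.swap x i, ?_, ?_⟩
  · rw [Equiv.Perm.mul_apply, Equiv.swap_apply_left, Equiv.swap_apply_of_ne_of_ne h1.symm hi]
  · rw [Equiv.Perm.mul_apply, Equiv.swap_apply_left]

/-- Generic points: the cross ratio of `p0, p1, p2, p3` separates all permutations. -/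
lemma exists_generic {n : ℕ} (p0 p1 p2 p3 p4 : Fin n) (h01 : p0 ≠ p1) (h02 : p0 ≠ p2)
    (h03 : p0 ≠ p3) (h12 : p1 ≠ p2) (h13 : p1 ≠ p3) (h23 : p2 ≠ p3) (h04 : p0 ≠ p4)
    (h14 : p1 ≠ p4) (h24 : p2 ≠ p4) (h34 : p3 ≠ p4) :
    ∃ z : Fin n → ℂ, Function.Injective z ∧ ∀ e : Equiv.Perm (Fin n), e ≠ 1 →
      ∃ g : Equiv.Perm (Fin n),
        (z (g p2) - z (g p0)) * (z (g p3) - z (g p1)) *
          ((z (e (g p3)) - z (e (g p0))) * (z (e (g p2)) - z (e (g p1)))) ≠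
        (z (g p3) - z (g p0)) * (z (g p2) - z (g p1)) *
          ((z (e (g p2)) - z (e (g p0))) * (z (e (g p3)) - z (e (g p1)))) := by
  classical
  -- the polynomial of a pair
  let D : Equiv.Perm (Fin n) → Equiv.Perm (Fin n) → MvPolynomial (Fin n) ℂ := fun e g =>
    (X (g p2) - X (g p0)) * (X (g p3) - X (g p1)) *
      ((X (e (g p3)) - X (e (g p0))) * (X (e (g p2)) - X (e (g p1)))) -
    (X (g p3) - X (g p0)) * (X (g p2) - X (g p1)) *
      ((X (e (g p2)) - X (e (g p0))) * (X (e (g p3)) - X (e (g p1))))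
  have key : ∀ e : Equiv.Perm (Fin n), e ≠ 1 → ∃ g, D e g ≠ 0 := by
    intro e he
    obtain ⟨i, hi⟩ : ∃ i, e i ≠ i := by
      by_contra h
      push Not at h
      exact he (Equiv.ext h)
    obtain ⟨g, hg0, hg4⟩ := exists_perm p0 p4 i (e i) h04 (Ne.symm hi)
    refine ⟨g, fun h0 => ?_⟩
    have hne : ∀ p q : Fin n, p ≠ q → g p ≠ g q := fun p q h h' => h (g.injective h')
    have hne' : ∀ p q : Fin n, p ≠ q → e (g p) ≠ e (g q) :=
      fun p q h h' => h (g.injective (e.injective h'))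
    let w : Fin n → ℂ := fun s => if s = e i then ((e (g p3) : Fin n) : ℕ) else ((s : ℕ) : ℂ)
    have hw0 : w (e (g p0)) = ((e (g p3) : Fin n) : ℕ) := by
      simp only [w, hg0, if_true]
    have hw : ∀ s, s ≠ e i → w s = ((s : ℕ) : ℂ) := fun s hs => if_neg hs
    have hinj : ∀ s t : Fin n, s ≠ t → s ≠ e i → t ≠ e i → w s - w t ≠ 0 := by
      intro s t hst hs ht
      rw [hw s hs, hw t ht, sub_ne_zero]
      intro h
      exact hst (Fin.ext (Nat.cast_injective h))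
    have hb : ∀ p, p ≠ p4 → g p ≠ e i := fun p hp => by rw [← hg4]; exact hne _ _ hp
    have hc : ∀ p, p ≠ p0 → e (g p) ≠ e i := fun p hp => by rw [← hg0]; exact hne' _ _ hp
    have h1 := congrArg (eval w) h0
    simp only [D, map_sub, map_mul, eval_X, map_zero] at h1
    have h2 : w (e (g p3)) = ((e (g p3) : Fin n) : ℕ) := hw _ (hc _ h03.symm)
    have h3 : w (e (g p3)) - w (e (g p0)) = 0 := by rw [hw0, h2, sub_self]
    have h4 : w (e (g p0)) = w (e (g p3)) := (sub_eq_zero.1 h3).symm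
    rw [h3, zero_mul, mul_zero, zero_sub, neg_eq_zero, h4] at h1
    have f1 := hinj _ _ (hne _ _ h03.symm) (hb _ h34) (hb _ h04)
    have f2 := hinj _ _ (hne _ _ h12.symm) (hb _ h24) (hb _ h14)
    have f3 := hinj _ _ (hne' _ _ h23) (hc _ h02.symm) (hc _ h03.symm)
    have f4 := hinj _ _ (hne' _ _ h13.symm) (hc _ h03.symm) (hc _ h01.symm)
    exact mul_ne_zero (mul_ne_zero f1 f2) (mul_ne_zero f3 f4) h1
  choose! G hG using key
  let Q : MvPolynomial (Fin n) ℂ :=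
    (∏ e ∈ Finset.univ.erase (1 : Equiv.Perm (Fin n)), D e (G e)) *
      ∏ p ∈ (Finset.univ : Finset (Fin n × Fin n)).filter (fun p => p.1 ≠ p.2), (X p.1 - X p.2)
  have hQ : Q ≠ 0 := by
    refine mul_ne_zero (Finset.prod_ne_zero_iff.2 fun e he => hG e (Finset.ne_of_mem_erase he))
      (Finset.prod_ne_zero_iff.2 fun p hp => ?_)
    rw [Finset.mem_filter] at hp
    rw [sub_ne_zero]
    intro h
    exact hp.2 (X_injective h)
  obtain ⟨z, hz⟩ : ∃ z, eval z Q ≠ 0 := by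
    by_contra h
    push Not at h
    exact hQ (MvPolynomial.funext fun x => by rw [h x, map_zero])
  simp only [Q, map_mul, map_prod] at hz
  have hz1 := left_ne_zero_of_mul hz
  have hz2 := right_ne_zero_of_mul hz
  rw [Finset.prod_ne_zero_iff] at hz1 hz2
  refine ⟨z, fun s t hst => ?_, fun e he => ⟨G e, fun h => ?_⟩⟩
  · by_contra hne
    have := hz2 (s, t) (Finset.mem_filter.2 ⟨Finset.mem_univ _, hne⟩)
    simp only [map_sub, eval_X] at this
    exact this (sub_eq_zero.2 hst)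
  · have := hz1 e (Finset.mem_erase.2 ⟨he, Finset.mem_univ _⟩)
    simp only [D, map_sub, map_mul, eval_X] at this
    exact this (sub_eq_zero.2 h)

/-- The product over all permutations. -/
theorem lab_of {m j n : ℕ} (A B : Equiv.Perm (Fin n) → MvPolynomial (Fin m × Fin n) ℂ)
    (α : Fin n → ℕ) (x : Fin m × Fin n → ℂ) (p0 p1 : Fin n) (h01 : p0 ≠ p1)
    (hAm : ∀ g, A g ∈ KK m (Fin n) (fun x => α (g⁻¹ x)) (fun i => if (i : ℕ) < j then 2 else 0))
    (hBm : ∀ g, B g ∈ KK m (Fin n) (fun x => α (g⁻¹ x)) (fun i => if (i : ℕ) < j then 2 else 0))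
    (hBne : ∀ g, eval x (B g) ≠ 0)
    (hA : ∀ e g : Equiv.Perm (Fin n),
      eval (fun p : Fin m × Fin n => x (p.1, e p.2)) (A g) = eval x (A (e * g)))
    (hB : ∀ e g : Equiv.Perm (Fin n),
      eval (fun p : Fin m × Fin n => x (p.1, e p.2)) (B g) = eval x (B (e * g)))
    (hsep : ∀ e : Equiv.Perm (Fin n), e ≠ 1 → ∃ g,
      eval x (A (e * g)) * eval x (B g) ≠ eval x (A g) * eval x (B (e * g))) :
    ∃ q l : ℕ, 0 < q ∧ Lab m j n q l := by
  classical
  let t : Equiv.Perm (Fin n) → ℂ := fun g => eval x (A g) / eval x (B g)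
  let T : Finset ℂ := Finset.univ.image t
  have hT : ∀ g, t g ∈ T := fun g => Finset.mem_image_of_mem _ (Finset.mem_univ _)
  have hsep' : ∀ e : Equiv.Perm (Fin n), e ≠ 1 → ∃ g, t (e * g) ≠ t g := by
    intro e he
    obtain ⟨g, hg⟩ := hsep e he
    refine ⟨g, fun h => hg ?_⟩
    exact (div_eq_div_iff (hBne _) (hBne _)).1 h
  have hne1 : (Equiv.swap p0 p1 : Equiv.Perm (Fin n)) ≠ 1 := by
    intro h
    have := congrArg (fun e : Equiv.Perm (Fin n) => e p0) h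
    simp only [Equiv.swap_apply_left, Equiv.Perm.one_apply] at this
    exact h01 this.symm
  have hcard : 1 < T.card := by
    obtain ⟨g, hg⟩ := hsep' _ hne1
    exact Finset.one_lt_card.2 ⟨_, hT _, _, hT _, hg⟩
  have hPm : (∏ g : Equiv.Perm (Fin n), ∏ c ∈ T.erase (t g), (A g - C c * B g)) ∈ KK m (Fin n)
      (∑ g : Equiv.Perm (Fin n), ∑ _c ∈ T.erase (t g), fun x => α (g⁻¹ x))
      (∑ g : Equiv.Perm (Fin n), ∑ _c ∈ T.erase (t g),
        fun i => if (i : ℕ) < j then 2 else 0) := by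
    refine KK_prod _ fun g _ => KK_prod _ fun c _ => ?_
    rw [← smul_eq_C_mul]
    exact sub_mem (hAm g) (Submodule.smul_mem _ c (hBm g))
  have hcd : ∀ g, (T.erase (t g)).card = T.card - 1 := fun g => Finset.card_erase_of_mem (hT g)
  refine ⟨(Fintype.card (Equiv.Perm (Fin n))) * ((T.card - 1) * 2),
    (T.card - 1) * ∑ g : Equiv.Perm (Fin n), α (g⁻¹ p0), ?_,
    ∏ g : Equiv.Perm (Fin n), ∏ c ∈ T.erase (t g), (A g - C c * B g), x, ?_, ?_, ?_⟩
  · have h1 := Fintype.card_pos (α := Equiv.Perm (Fin n))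
    have h2 : 0 < T.card - 1 := by omega
    positivity
  · have e1 : (∑ g : Equiv.Perm (Fin n), ∑ _c ∈ T.erase (t g), fun x => α (g⁻¹ x)) =
        fun _ => (T.card - 1) * ∑ g : Equiv.Perm (Fin n), α (g⁻¹ p0) := by
      ext x
      simp only [Finset.sum_const, hcd, Finset.sum_apply, Pi.smul_apply, smul_eq_mul]
      rw [← Finset.mul_sum, sum_perm α x p0]
    have e2 : (∑ g : Equiv.Perm (Fin n), ∑ _c ∈ T.erase (t g),
        fun i : Fin m => if (i : ℕ) < j then 2 else 0) =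
        fun i : Fin m => if (i : ℕ) < j then
          (Fintype.card (Equiv.Perm (Fin n))) * ((T.card - 1) * 2) else 0 := by
      ext i
      simp only [Finset.sum_const, hcd, Pi.smul_apply, smul_eq_mul, Finset.card_univ]
      split_ifs
      · rfl
      · simp
    rw [e1, e2] at hPm
    exact hPm
  · rw [map_prod]
    refine Finset.prod_ne_zero_iff.2 fun g _ => ?_
    rw [map_prod]
    refine Finset.prod_ne_zero_iff.2 fun c hc h => ?_
    rw [map_sub, map_mul, eval_C, sub_eq_zero] at h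
    exact Finset.ne_of_mem_erase hc (eq_div_of_mul_eq (hBne g) h.symm)
  · intro e he
    obtain ⟨g, hg⟩ := hsep' e he
    rw [map_prod]
    refine Finset.prod_eq_zero (Finset.mem_univ g) ?_
    rw [map_prod]
    refine Finset.prod_eq_zero (Finset.mem_erase.2 ⟨hg, hT _⟩) ?_
    rw [map_sub, map_mul, eval_C, hA, hB]
    exact sub_eq_zero.2 (div_mul_cancel₀ _ (hBne _)).symm

/-- The common factor. -/
noncomputable def RR {r n : ℕ} (p0 p1 p2 p3 : Fin n) (S : Fin r → Fin n) (w : Fin n → ℂ) : ℂ :=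
  (∏ l, (w (S l) - w p0)) * (∏ l, (w (S l) - w p1)) *
    (∏ l, (w (S l) - w p2)) * (∏ l, (w (S l) - w p3)) * (vd fun l => w (S l)) ^ 2

lemma RR_ne {r n : ℕ} (p0 p1 p2 p3 : Fin n) (S : Fin r → Fin n) (w : Fin n → ℂ)
    (hw : Function.Injective w) (hS0 : ∀ l, S l ≠ p0) (hS1 : ∀ l, S l ≠ p1)
    (hS2 : ∀ l, S l ≠ p2) (hS3 : ∀ l, S l ≠ p3) (hSi : Function.Injective S) :
    RR p0 p1 p2 p3 S w ≠ 0 := by
  have hp : ∀ p, (∀ l, S l ≠ p) → ∏ l, (w (S l) - w p) ≠ 0 := fun p hp =>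
    Finset.prod_ne_zero_iff.2 fun l _ => sub_ne_zero.2 fun h => hp l (hw h)
  have hv : vd (fun l => w (S l)) ≠ 0 := by
    unfold vd
    refine Finset.prod_ne_zero_iff.2 fun i _ => Finset.prod_ne_zero_iff.2 fun l hl => ?_
    rw [Finset.mem_Ioi] at hl
    exact sub_ne_zero.2 fun h => hl.ne' (hSi (hw h))
  exact mul_ne_zero (mul_ne_zero (mul_ne_zero (mul_ne_zero (hp _ hS0) (hp _ hS1)) (hp _ hS2))
    (hp _ hS3)) (pow_ne_zero _ hv)

lemma eval_A {m r n : ℕ} (h : r + 2 ≤ m) (p0 p1 p2 p3 : Fin n) (S : Fin r → Fin n)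
    (w : Fin n → ℂ) (g : Equiv.Perm (Fin n)) :
    eval (ev w) (AA (g p0) (g p2) (g p1) (g p3) (fun l => g (S l)) h) =
      (w (g p2) - w (g p0)) * (w (g p3) - w (g p1)) * RR p0 p1 p2 p3 S (fun s => w (g s)) := by
  rw [eval_AA]
  unfold RR
  ring

lemma eval_B {m r n : ℕ} (h : r + 2 ≤ m) (p0 p1 p2 p3 : Fin n) (S : Fin r → Fin n)
    (w : Fin n → ℂ) (g : Equiv.Perm (Fin n)) :
    eval (ev w) (AA (g p0) (g p3) (g p1) (g p2) (fun l => g (S l)) h) =
      (w (g p3) - w (g p0)) * (w (g p2) - w (g p1)) * RR p0 p1 p2 p3 S (fun s => w (g s)) := by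
  rw [eval_AA]
  unfold RR
  ring

/-- **(N1)** labels exist. -/
theorem labS : LabS := by
  classical
  intro m j n hj hjm hn
  obtain ⟨r, rfl⟩ : ∃ r, j = r + 2 := ⟨j - 2, by omega⟩
  obtain ⟨p0, hp0⟩ : ∃ p : Fin n, (p : ℕ) = 0 := ⟨⟨0, by omega⟩, rfl⟩
  obtain ⟨p1, hp1⟩ : ∃ p : Fin n, (p : ℕ) = 1 := ⟨⟨1, by omega⟩, rfl⟩
  obtain ⟨p2, hp2⟩ : ∃ p : Fin n, (p : ℕ) = 2 := ⟨⟨2, by omega⟩, rfl⟩
  obtain ⟨p3, hp3⟩ : ∃ p : Fin n, (p : ℕ) = 3 := ⟨⟨3, by omega⟩, rfl⟩
  obtain ⟨p4, hp4⟩ : ∃ p : Fin n, (p : ℕ) = n - 1 := ⟨⟨n - 1, by omega⟩, rfl⟩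
  obtain ⟨S, hS⟩ : ∃ S : Fin r → Fin n, ∀ l, (S l : ℕ) = 4 + l :=
    ⟨fun l => ⟨4 + (l : ℕ), by have := l.2; omega⟩, fun l => rfl⟩
  have hne : ∀ p q : Fin n, (p : ℕ) ≠ q → p ≠ q := fun p q h h' => h (by rw [h'])
  have h01 : p0 ≠ p1 := hne _ _ (by omega)
  have h02 : p0 ≠ p2 := hne _ _ (by omega)
  have h03 : p0 ≠ p3 := hne _ _ (by omega)
  have h12 : p1 ≠ p2 := hne _ _ (by omega)
  have h13 : p1 ≠ p3 := hne _ _ (by omega)
  have h23 : p2 ≠ p3 := hne _ _ (by omega)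
  have h04 : p0 ≠ p4 := hne _ _ (by omega)
  have h14 : p1 ≠ p4 := hne _ _ (by omega)
  have h24 : p2 ≠ p4 := hne _ _ (by omega)
  have h34 : p3 ≠ p4 := hne _ _ (by omega)
  have hS0 : ∀ l, S l ≠ p0 := fun l => hne _ _ (by have := hS l; omega)
  have hS1 : ∀ l, S l ≠ p1 := fun l => hne _ _ (by have := hS l; omega)
  have hS2 : ∀ l, S l ≠ p2 := fun l => hne _ _ (by have := hS l; omega)
  have hS3 : ∀ l, S l ≠ p3 := fun l => hne _ _ (by have := hS l; omega)
  have hSi : Function.Injective S := fun l l' h => by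
    have h1 := hS l
    have h2 := hS l'
    rw [h] at h1
    exact Fin.ext (by omega)
  obtain ⟨z, hz, hgen⟩ := exists_generic p0 p1 p2 p3 p4 h01 h02 h03 h12 h13 h23 h04 h14 h24 h34
  have hzg : ∀ g : Equiv.Perm (Fin n), Function.Injective fun s => z (g s) :=
    fun g => hz.comp g.injective
  have hzd : ∀ (g : Equiv.Perm (Fin n)) (p q : Fin n), p ≠ q → z (g p) - z (g q) ≠ 0 :=
    fun g p q h => sub_ne_zero.2 fun h' => h (hzg g h')
  have hR : ∀ g : Equiv.Perm (Fin n), RR p0 p1 p2 p3 S (fun s => z (g s)) ≠ 0 := fun g =>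
    RR_ne p0 p1 p2 p3 S _ (hzg g) hS0 hS1 hS2 hS3 hSi
  refine lab_of (fun g => AA (g p0) (g p2) (g p1) (g p3) (fun l => g (S l)) hjm)
    (fun g => AA (g p0) (g p3) (g p1) (g p2) (fun l => g (S l)) hjm) (ct p0 p2 p1 p3 S) (ev z)
    p0 p1 h01 ?_ ?_ ?_ ?_ ?_ ?_
  · intro g
    have h := AA_mem (g p0) (g p2) (g p1) (g p3) (fun l => g (S l)) hjm
    have e : ct (g p0) (g p2) (g p1) (g p3) (fun l => g (S l)) =
        fun x => ct p0 p2 p1 p3 S (g⁻¹ x) := by
      ext x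
      exact ct_perm _ _ _ _ _ _ _
    rw [e] at h
    exact h
  · intro g
    have h := AA_mem (g p0) (g p3) (g p1) (g p2) (fun l => g (S l)) hjm
    have e : ct (g p0) (g p3) (g p1) (g p2) (fun l => g (S l)) =
        fun x => ct p0 p2 p1 p3 S (g⁻¹ x) := by
      rw [ct_swap]
      ext x
      exact ct_perm _ _ _ _ _ _ _
    rw [e] at h
    exact h
  · intro g
    rw [eval_B]
    exact mul_ne_zero (mul_ne_zero (hzd g _ _ h03.symm) (hzd g _ _ h12.symm)) (hR g)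
  · intro e g
    rw [eval_A hjm p0 p1 p2 p3 S z (e * g)]
    exact eval_A hjm p0 p1 p2 p3 S (fun s => z (e s)) g
  · intro e g
    rw [eval_B hjm p0 p1 p2 p3 S z (e * g)]
    exact eval_B hjm p0 p1 p2 p3 S (fun s => z (e s)) g
  · intro e he
    obtain ⟨g, hg⟩ := hgen e he
    refine ⟨g, fun h => hg ?_⟩
    rw [eval_A hjm p0 p1 p2 p3 S z (e * g), eval_A hjm p0 p1 p2 p3 S z g,
      eval_B hjm p0 p1 p2 p3 S z (e * g), eval_B hjm p0 p1 p2 p3 S z g] at h
    have r1 := hR g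
    have r2 := hR (e * g)
    simp only [Equiv.Perm.mul_apply] at h r2
    have r3 := mul_ne_zero r1 r2
    refine mul_right_cancel₀ r3 ?_
    linear_combination -h

end Vale.Agent.P181.NR.H312
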