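import Vale.Agent.P181.NR.DefsP
import Vale.Agent.P181.NR.H312.Lab

set_option autoImplicit false

/-!
# P181, NR (P1): labels of polynomial degree
-/

open MvPolynomial

namespace Vale.Agent.P181.NR.H312

open Vale.Agent.P181.TL (KK)

/-- The product over an orbit. -/
theorem lab_orb {m j n : ℕ} {I : Type} [Fintype I] [DecidableEq I]
    (A B : I → MvPolynomial (Fin m × Fin n) ℂ)
    (α : I → Fin n → ℕ) (act : Equiv.Perm (Fin n) → Equiv.Perm I)
    (x : Fin m × Fin n → ℂ) (p0 p1 : Fin n) (h01 : p0 ≠ p1)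
    (hα : ∀ e i y, α (act e i) (e y) = α i y)
    (hAm : ∀ i, A i ∈ KK m (Fin n) (α i) (fun i => if (i : ℕ) < j then 2 else 0))
    (hBm : ∀ i, B i ∈ KK m (Fin n) (α i) (fun i => if (i : ℕ) < j then 2 else 0))
    (hBne : ∀ i, eval x (B i) ≠ 0)
    (hA : ∀ (e : Equiv.Perm (Fin n)) i,
      eval (fun p : Fin m × Fin n => x (p.1, e p.2)) (A i) = eval x (A (act e i)))
    (hB : ∀ (e : Equiv.Perm (Fin n)) i,
      eval (fun p : Fin m × Fin n => x (p.1, e p.2)) (B i) = eval x (B (act e i)))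
    (hsep : ∀ e : Equiv.Perm (Fin n), e ≠ 1 → ∃ i,
      eval x (A (act e i)) * eval x (B i) ≠ eval x (A i) * eval x (B (act e i))) :
    ∃ T : ℕ, 1 < T ∧ T ≤ Fintype.card I ∧
      Lab m j n (Fintype.card I * ((T - 1) * 2)) ((T - 1) * ∑ i, α i p0) := by
  classical
  let t : I → ℂ := fun g => eval x (A g) / eval x (B g)
  let T : Finset ℂ := Finset.univ.image t
  have hT : ∀ g, t g ∈ T := fun g => Finset.mem_image_of_mem _ (Finset.mem_univ _)
  have hsep' : ∀ e : Equiv.Perm (Fin n), e ≠ 1 → ∃ g, t (act e g) ≠ t g := by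
    intro e he
    obtain ⟨g, hg⟩ := hsep e he
    refine ⟨g, fun h => hg ?_⟩
    exact (div_eq_div_iff (hBne _) (hBne _)).1 h
  have hne1 : (Equiv.swap p0 p1 : Equiv.Perm (Fin n)) ≠ 1 := by
    intro h
    have := congrArg (fun e : Equiv.Perm (Fin n) => e p0) h
    simp only [Equiv.swap_apply_left, Equiv.Perm.one_apply] at this
    exact h01 this.symm
  have hcard : 1 < T.card := by
    obtain ⟨g, hg⟩ := hsep' _ hne1
    exact Finset.one_lt_card.2 ⟨_, hT _, _, hT _, hg⟩
  have hle : T.card ≤ Fintype.card I := by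
    refine Finset.card_image_le.trans ?_
    rw [Finset.card_univ]
  have hPm : (∏ g : I, ∏ c ∈ T.erase (t g), (A g - C c * B g)) ∈ KK m (Fin n)
      (∑ g : I, ∑ _c ∈ T.erase (t g), α g)
      (∑ g : I, ∑ _c ∈ T.erase (t g), fun i => if (i : ℕ) < j then 2 else 0) := by
    refine KK_prod _ fun g _ => KK_prod _ fun c _ => ?_
    rw [← smul_eq_C_mul]
    exact sub_mem (hAm g) (Submodule.smul_mem _ c (hBm g))
  have hcd : ∀ g, (T.erase (t g)).card = T.card - 1 := fun g => Finset.card_erase_of_mem (hT g)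
  have hsum : ∀ y, ∑ i, α i y = ∑ i, α i p0 := by
    intro y
    rw [← Equiv.sum_comp (act (Equiv.swap y p0)) (fun i => α i p0)]
    refine Finset.sum_congr rfl fun i _ => ?_
    have h := hα (Equiv.swap y p0) i y
    rw [Equiv.swap_apply_left] at h
    exact h.symm
  refine ⟨T.card, hcard, hle, ∏ g : I, ∏ c ∈ T.erase (t g), (A g - C c * B g), x, ?_, ?_, ?_⟩
  · have e1 : (∑ g : I, ∑ _c ∈ T.erase (t g), α g) =
        fun _ => (T.card - 1) * ∑ i, α i p0 := by
      ext y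
      simp only [Finset.sum_const, hcd, Finset.sum_apply, Pi.smul_apply, smul_eq_mul]
      rw [← Finset.mul_sum, hsum y]
    have e2 : (∑ g : I, ∑ _c ∈ T.erase (t g), fun i : Fin m => if (i : ℕ) < j then 2 else 0) =
        fun i : Fin m => if (i : ℕ) < j then (Fintype.card I) * ((T.card - 1) * 2) else 0 := by
      ext i
      simp only [Finset.sum_const, hcd, Pi.smul_apply, smul_eq_mul, Finset.card_univ]
      split_ifs
      · rfl
      · simp
    rw [e1, e2] at hPm
    exact hPm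
  · rw [map_prod]
    refine Finset.prod_ne_zero_iff.2 fun g _ => ?_
    rw [map_prod]
    refine Finset.prod_ne_zero_iff.2 fun c hc h => ?_
    rw [map_sub, map_mul, eval_C, sub_eq_zero] at h
    exact Finset.ne_of_mem_erase hc (eq_div_of_mul_eq (hBne g) h.symm)
  · intro e he
    obtain ⟨g, hg⟩ := hsep' e he
    rw [map_prod]
    refine Finset.prod_eq_zero (Finset.mem_univ g) ?_
    rw [map_prod]
    refine Finset.prod_eq_zero (Finset.mem_erase.2 ⟨hg, hT _⟩) ?_
    rw [map_sub, map_mul, eval_C, hA, hB]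
    exact sub_eq_zero.2 (div_mul_cancel₀ _ (hBne _)).symm

section emb

variable {r n : ℕ}

/-- The four special places. -/
def q0 : Fin (r + 4) := ⟨0, by omega⟩
def q1 : Fin (r + 4) := ⟨1, by omega⟩
def q2 : Fin (r + 4) := ⟨2, by omega⟩
def q3 : Fin (r + 4) := ⟨3, by omega⟩

/-- The other places. -/
def qS (f : Fin (r + 4) ↪ Fin n) : Fin r → Fin n := fun l => f ⟨4 + (l : ℕ), by have := l.2; omega⟩

/-- Permutations act on injections. -/
def acE (e : Equiv.Perm (Fin n)) : Equiv.Perm (Fin (r + 4) ↪ Fin n) where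
  toFun f := f.trans e.toEmbedding
  invFun f := f.trans e.symm.toEmbedding
  left_inv f := by
    ext l
    simp
  right_inv f := by
    ext l
    simp

lemma acE_apply (e : Equiv.Perm (Fin n)) (f : Fin (r + 4) ↪ Fin n) (l : Fin (r + 4)) :
    acE e f l = e (f l) := rfl

lemma card_emb_le : Fintype.card (Fin (r + 4) ↪ Fin n) ≤ n ^ (r + 4) := by
  rw [Fintype.card_embedding_eq, Fintype.card_fin, Fintype.card_fin]
  exact Nat.descFactorial_le_pow _ _

lemma ct_le (a b c d : Fin n) (S : Fin r → Fin n) (y : Fin n) : ct a b c d S y ≤ 2 * r + 4 := by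
  unfold ct
  have h : (Finset.univ.filter fun l => S l = y).card ≤ r :=
    (Finset.card_le_univ _).trans (by rw [Fintype.card_fin])
  split_ifs <;> omega

lemma eval_fA {m : ℕ} (h : r + 2 ≤ m) (w : Fin n → ℂ) (f : Fin (r + 4) ↪ Fin n) :
    eval (ev w) (AA (f q0) (f q2) (f q1) (f q3) (qS f) h) =
      (w (f q2) - w (f q0)) * (w (f q3) - w (f q1)) *
        RR (f q0) (f q1) (f q2) (f q3) (qS f) w := by
  rw [eval_AA]
  unfold RR
  ring

lemma eval_fB {m : ℕ} (h : r + 2 ≤ m) (w : Fin n → ℂ) (f : Fin (r + 4) ↪ Fin n) :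
    eval (ev w) (AA (f q0) (f q3) (f q1) (f q2) (qS f) h) =
      (w (f q3) - w (f q0)) * (w (f q2) - w (f q1)) *
        RR (f q0) (f q1) (f q2) (f q3) (qS f) w := by
  rw [eval_AA]
  unfold RR
  ring

end emb

/-- **(P1)** labels, with a bound. -/
theorem labP : LabP := by
  classical
  intro m j hj hjm
  obtain ⟨r, rfl⟩ : ∃ r, j = r + 2 := ⟨j - 2, by omega⟩
  refine ⟨2 * (r + 4) + 2, fun n hn => ?_⟩
  -- a base injection
  obtain ⟨f0, hf0⟩ : ∃ f : Fin (r + 4) ↪ Fin n, ∀ l, (f l : ℕ) = l :=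
    ⟨⟨fun l => ⟨l, by have := l.2; omega⟩, fun l l' h => Fin.ext (by simpa using h)⟩,
      fun l => rfl⟩
  obtain ⟨p4, hp4⟩ : ∃ p : Fin n, (p : ℕ) = n - 1 := ⟨⟨n - 1, by omega⟩, rfl⟩
  have hne : ∀ p q : Fin n, (p : ℕ) ≠ q → p ≠ q := fun p q h h' => h (by rw [h'])
  have hq0 : ((q0 : Fin (r + 4)) : ℕ) = 0 := rfl
  have hq1 : ((q1 : Fin (r + 4)) : ℕ) = 1 := rfl
  have hq2 : ((q2 : Fin (r + 4)) : ℕ) = 2 := rfl
  have hq3 : ((q3 : Fin (r + 4)) : ℕ) = 3 := rfl
  have k01 : (q0 : Fin (r + 4)) ≠ q1 := fun h => by simp [q0, q1] at h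
  have k02 : (q0 : Fin (r + 4)) ≠ q2 := fun h => by simp [q0, q2] at h
  have k03 : (q0 : Fin (r + 4)) ≠ q3 := fun h => by simp [q0, q3] at h
  have k12 : (q1 : Fin (r + 4)) ≠ q2 := fun h => by simp [q1, q2] at h
  have k13 : (q1 : Fin (r + 4)) ≠ q3 := fun h => by simp [q1, q3] at h
  have k23 : (q2 : Fin (r + 4)) ≠ q3 := fun h => by simp [q2, q3] at h
  have hf4 : ∀ l, f0 l ≠ p4 := fun l => hne _ _ (by have := hf0 l; have := l.2; omega)
  have hfi : ∀ l l', l ≠ l' → f0 l ≠ f0 l' := fun l l' h h' => h (f0.injective h')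
  obtain ⟨z, hz, hgen⟩ := exists_generic (f0 q0) (f0 q1) (f0 q2) (f0 q3) p4 (hfi _ _ k01)
    (hfi _ _ k02) (hfi _ _ k03) (hfi _ _ k12) (hfi _ _ k13) (hfi _ _ k23) (hf4 _) (hf4 _) (hf4 _)
    (hf4 _)
  have hzd : ∀ (f : Fin (r + 4) ↪ Fin n) (p q : Fin (r + 4)), p ≠ q → z (f p) - z (f q) ≠ 0 :=
    fun f p q h => sub_ne_zero.2 fun h' => h (f.injective (hz h'))
  have hR : ∀ (w : Fin n → ℂ), Function.Injective w → ∀ f : Fin (r + 4) ↪ Fin n,
      RR (f q0) (f q1) (f q2) (f q3) (qS f) w ≠ 0 := by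
    intro w hw f
    have hh : ∀ (l : Fin r) (p : Fin (r + 4)), (p : ℕ) < 4 → qS f l ≠ f p := by
      intro l p hp h
      have := congrArg (fun t : Fin (r + 4) => (t : ℕ)) (f.injective h)
      simp only at this
      omega
    refine RR_ne _ _ _ _ _ _ hw (fun l => hh l _ (by rw [hq0]; omega))
      (fun l => hh l _ (by rw [hq1]; omega)) (fun l => hh l _ (by rw [hq2]; omega))
      (fun l => hh l _ (by rw [hq3]; omega)) fun l l' h => ?_
    have := congrArg (fun t : Fin (r + 4) => (t : ℕ)) (f.injective h)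
    simp only at this
    exact Fin.ext (by omega)
  obtain ⟨T, hT1, hT2, hLab⟩ := lab_orb (j := r + 2)
    (fun f : Fin (r + 4) ↪ Fin n => AA (f q0) (f q2) (f q1) (f q3) (qS f) hjm)
    (fun f => AA (f q0) (f q3) (f q1) (f q2) (qS f) hjm)
    (fun f => ct (f q0) (f q2) (f q1) (f q3) (qS f)) acE (ev z) (f0 q0) (f0 q1) (hfi _ _ k01)
    (fun e f y => by
      have h := ct_perm (f q0) (f q2) (f q1) (f q3) (qS f) e (e y)
      have h' : e⁻¹ (e y) = y := e.symm_apply_apply y
      rw [h'] at h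
      exact h)
    (fun f => AA_mem _ _ _ _ _ hjm)
    (fun f => by
      have h := AA_mem (f q0) (f q3) (f q1) (f q2) (qS f) hjm
      rw [ct_swap] at h
      exact h)
    (fun f => by
      rw [eval_fB]
      exact mul_ne_zero (mul_ne_zero (hzd f _ _ k03.symm) (hzd f _ _ k12.symm)) (hR z hz f))
    (fun e f => (eval_fA hjm (fun s => z (e s)) f).trans (eval_fA hjm z (acE e f)).symm)
    (fun e f => (eval_fB hjm (fun s => z (e s)) f).trans (eval_fB hjm z (acE e f)).symm)
    (by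
      intro e he
      obtain ⟨g, hg⟩ := hgen e he
      refine ⟨acE g f0, fun h => hg ?_⟩
      rw [eval_fA hjm z (acE e (acE g f0)), eval_fA hjm z (acE g f0),
        eval_fB hjm z (acE e (acE g f0)), eval_fB hjm z (acE g f0)] at h
      have r1 := hR z hz (acE g f0)
      have r2 := hR z hz (acE e (acE g f0))
      have r3 := mul_ne_zero r1 r2
      simp only [acE_apply] at h r3
      refine mul_right_cancel₀ r3 ?_
      linear_combination -h)
  have hI : Fintype.card (Fin (r + 4) ↪ Fin n) ≤ n ^ (r + 4) := card_emb_le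
  have hn1 : 0 < n := by omega
  have hpow : n ^ (2 * (r + 4) + 2) = n ^ (r + 4) * n ^ (r + 4) * (n * n) := by ring
  have hnn : 2 * r + 4 ≤ n * n := by nlinarith
  have hTn : T - 1 ≤ n ^ (r + 4) := by omega
  refine ⟨_, _, ?_, ?_, ?_, hLab⟩
  · have h1 : 0 < T - 1 := by omega
    have h2 : 0 < Fintype.card (Fin (r + 4) ↪ Fin n) := by omega
    positivity
  · rw [hpow]
    calc Fintype.card (Fin (r + 4) ↪ Fin n) * ((T - 1) * 2)
        ≤ n ^ (r + 4) * (n ^ (r + 4) * (n * n)) := by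
          refine Nat.mul_le_mul hI (Nat.mul_le_mul hTn ?_)
          nlinarith
      _ = _ := by ring
  · rw [hpow]
    have hs : ∑ i : Fin (r + 4) ↪ Fin n, ct (i q0) (i q2) (i q1) (i q3) (qS i) (f0 q0) ≤
        n ^ (r + 4) * (n * n) := by
      calc _ ≤ ∑ _i : Fin (r + 4) ↪ Fin n, n * n :=
            Finset.sum_le_sum fun i _ => (ct_le _ _ _ _ _ _).trans hnn
        _ = Fintype.card (Fin (r + 4) ↪ Fin n) * (n * n) := by
            rw [Finset.sum_const, Finset.card_univ, smul_eq_mul]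
        _ ≤ _ := Nat.mul_le_mul_right _ hI
    calc _ ≤ n ^ (r + 4) * (n ^ (r + 4) * (n * n)) := Nat.mul_le_mul hTn hs
      _ = _ := by ring

end Vale.Agent.P181.NR.H312
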